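import Vale.Agent.P307.R2.H971.Pos

/-!
Existence of saturated members of size `θ⁺`.
-/

set_option linter.unusedSectionVars false

universe u v w

open FirstOrder Cardinal Set

namespace Vale.Agent.P307.R2.H971

open Vale.Agent.P307 Vale.Agent.P307.H304 Vale.Agent.P307.R2.H287 Language.Structure
  Language.Substructure

variable {L : Language.{u, u}} {K : AEC L} {ℓ θ T : Cardinal.{u}}

/-- A good position extends to a strong embedding of a strong submodel. -/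
theorem exists_emb_of_good (hK : K.IsLS ℓ) (hℓ : ℓ ≤ θ) {M N : Type u} [L.Structure M]
    [L.Structure N] (hM : K.mem M) (hN : K.mem N) {R : Set (M × N)} (hR : Good L θ R)
    (S : L.Substructure M) (hS : K.le S) (hSc : #S ≤ θ) :
    ∃ h : S ↪[L] N, K.Emb h ∧ EqS L θ (fun a : S => (a : M)) h ∧
      ∀ p ∈ R, ∀ hp : p.1 ∈ S, h ⟨p.1, hp⟩ = p.2 := by
  have hK' := hK.mono hℓ
  obtain ⟨R', h1, h2, h3⟩ := hR.exists_left (S : Set M) hSc
  have h4 : Good L θ {p | p ∈ R' ∧ p.1 ∈ S} := h2.subset fun p hp => hp.1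
  have h5 : (S : Set M) = Prod.fst '' {p | p ∈ R' ∧ p.1 ∈ S} := by
    ext x
    constructor
    · intro hx
      obtain ⟨b, hb⟩ := h3 x hx
      exact ⟨(x, b), ⟨hb, hx⟩, rfl⟩
    · rintro ⟨p, hp, rfl⟩
      exact hp.2
  obtain ⟨T, hT⟩ := exists_substructure hK'.1 hK'.2.1 h4 h5
  have h6 : K.le T := le_of_good hK' hM hN h4 hS h5 hT
  obtain ⟨e, he⟩ := h4.1.exists_equiv_sub S T (by
    intro a ha
    rw [← SetLike.mem_coe, h5] at ha
    obtain ⟨p, hp, rfl⟩ := ha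
    exact ⟨p.2, by rw [← SetLike.mem_coe, hT]; exact ⟨p, hp, rfl⟩, hp⟩) (by
    intro b hb
    rw [← SetLike.mem_coe, hT] at hb
    obtain ⟨p, hp, rfl⟩ := hb
    exact ⟨p.1, by rw [← SetLike.mem_coe, h5]; exact ⟨p, hp, rfl⟩, hp⟩)
  refine ⟨T.subtype.comp e.toEmbedding, AEC.Emb.comp (AEC.emb_subtype.2 h6)
    (AEC.Emb.of_equiv e (K.mem_of_le _ hS).1), h4.subset ?_, ?_⟩
  · rintro _ ⟨a, rfl⟩
    exact he a
  · intro p hp hpS
    exact ((h4.1.eq_iff _ (he ⟨p.1, hpS⟩) _ ⟨h1 hp, hpS⟩).1 rfl)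

/-- The range of a strong embedding is contained in the range of another one. -/
theorem exists_lift {A M P : Type u} [L.Structure A] [L.Structure M] [L.Structure P]
    (h : A ↪[L] M) (j : P ↪[L] M) (hh : K.Emb h) (hj : K.Emb j) (hr : ∀ a, ∃ p, j p = h a) :
    ∃ k : A ↪[L] P, K.Emb k ∧ ∀ a, j (k a) = h a := by
  have h1 : ∀ a, h a ∈ j.toHom.range := fun a => hr a
  let k₀ : A ↪[L] j.toHom.range := h.codRestrict _ h1
  let k : A ↪[L] P := j.equivRange.symm.toEmbedding.comp k₀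
  have h2 : ∀ a, j (k a) = h a := by
    intro a
    have h3 : j.equivRange (j.equivRange.symm (k₀ a)) = k₀ a := j.equivRange.apply_symm_apply _
    have h4 := congrArg (Subtype.val) h3
    exact h4
  refine ⟨k, AEC.Emb.of_comp hj ?_, h2⟩
  have h3 : j.comp k = h := by
    ext a
    exact h2 a
  rw [h3]
  exact hh

/-- Isomorphic strong submodels of size `θ` of members of size at least `T` are in the same
position. -/
def AB (K : AEC L) (θ T : Cardinal.{u}) : Prop :=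
  ∀ (A M N : Type u) [L.Structure A] [L.Structure M] [L.Structure N] (f : A ↪[L] M)
    (g : A ↪[L] N), K.Emb f → K.Emb g → #A = θ → T ≤ #M → T ≤ #N → EqS L θ f g

/-- Members of size `θ` have large extensions. -/
def LargeExt (K : AEC L) (θ T : Cardinal.{u}) : Prop :=
  ∀ (A : Type u) [L.Structure A], K.mem A → #A = θ → ∃ (M : Type u) (_ : L.Structure M)
    (f : A ↪[L] M), K.Emb f ∧ T ≤ #M

theorem largeExt_of_cat (hK : K.IsLS ℓ) (hℓ : ℓ ≤ θ) (hcat : K.CategoricalIn θ) {M : Type u}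
    [L.Structure M] (hM : K.mem M) (hθM : θ ≤ #M) (hT : T ≤ #M) : LargeExt K θ T := by
  intro A _ hA hAc
  obtain ⟨S, hS, -, hSc⟩ := exists_sub_card hK hℓ hM hθM ∅ (by simp)
  obtain ⟨e⟩ := hcat.2 A S hA (K.mem_of_le _ hS).1 hAc hSc
  exact ⟨M, inferInstance, S.subtype.comp e.toEmbedding,
    AEC.Emb.comp (AEC.emb_subtype.2 hS) (AEC.Emb.of_equiv e hA), hT⟩

theorem AB.sat (hAB : AB K θ T) (hK : K.IsLS ℓ) (hℓ : ℓ ≤ θ) (hext : LargeExt K θ T) {M : Type u}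
    [L.Structure M] (hM : T ≤ #M) : Sat K θ M := by
  intro A B _ _ i f hi hf hA hB
  obtain ⟨N, _, β, hβ, hN⟩ := hext B hf.mem_right hB
  have h1 := hAB A N M (β.comp f) i (AEC.Emb.comp hβ hf) hi hA hN hM
  obtain ⟨h, h2, -, h3⟩ := exists_emb_of_good hK hℓ hβ.mem_right hi.mem_right h1 β.toHom.range hβ
    ((mk_congr β.equivRange.toEquiv).symm.trans hB).le
  refine ⟨h.comp β.equivRange.toEmbedding,
    AEC.Emb.comp h2 (AEC.Emb.of_equiv _ hf.mem_right), fun a => ?_⟩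
  exact h3 _ ⟨a, rfl⟩ ⟨f a, rfl⟩

/-- Amalgamation. -/
theorem AB.amalg (hAB : AB K θ T) (hK : K.IsLS ℓ) (hℓ : ℓ ≤ θ) (hext : LargeExt K θ T)
    {A B C : Type u} [L.Structure A] [L.Structure B] [L.Structure C] (f : A ↪[L] B)
    (g : A ↪[L] C) (hf : K.Emb f) (hg : K.Emb g) (hA : #A = θ) (hB : #B = θ) (hC : #C = θ) :
    ∃ (D : Type u) (_ : L.Structure D) (f' : B ↪[L] D) (g' : C ↪[L] D), K.Emb f' ∧ K.Emb g' ∧
      #D = θ ∧ ∀ a, f' (f a) = g' (g a) := by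
  have hθ : ℵ₀ ≤ θ := hK.1.trans hℓ
  obtain ⟨N, _, γ, hγ, hN⟩ := hext C hg.mem_right hC
  obtain ⟨h, h2, h3⟩ := hAB.sat hK hℓ hext hN A B (γ.comp g) f (AEC.Emb.comp hγ hg) hf hA hB
  have hCN : θ ≤ #N := hC.symm.trans_le (mk_le_of_injective γ.injective)
  obtain ⟨S, hS, hSr, hSc⟩ := exists_sub_card hK hℓ hγ.mem_right hCN (range h ∪ range γ)
    ((mk_union_le _ _).trans (add_le_of_le hθ (mk_range_le.trans hB.le)
      (mk_range_le.trans hC.le)))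
  obtain ⟨f', hf', hf''⟩ := exists_lift h S.subtype h2 (AEC.emb_subtype.2 hS)
    fun a => ⟨⟨h a, hSr (Or.inl ⟨a, rfl⟩)⟩, rfl⟩
  obtain ⟨g', hg', hg''⟩ := exists_lift γ S.subtype hγ (AEC.emb_subtype.2 hS)
    fun a => ⟨⟨γ a, hSr (Or.inr ⟨a, rfl⟩)⟩, rfl⟩
  refine ⟨S, inferInstance, f', g', hf', hg', hSc, fun a => S.subtype.injective ?_⟩
  rw [hf'', hg'', h3]
  rfl

/-- Saturation can be checked over a cofinal family of submodels. -/
theorem AB.sat_of_cofinal (hAB : AB K θ T) (hK : K.IsLS ℓ) (hℓ : ℓ ≤ θ) (hext : LargeExt K θ T)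
    {C : Type u} [L.Structure C]
    (h : ∀ X : Set C, #X ≤ θ → ∃ (A : Type u) (_ : L.Structure A) (i : A ↪[L] C), K.Emb i ∧
      #A = θ ∧ (∀ x ∈ X, ∃ a, i a = x) ∧ ∀ (B : Type u) [L.Structure B] (f : A ↪[L] B),
        K.Emb f → #B = θ → ∃ g : B ↪[L] C, K.Emb g ∧ ∀ a, g (f a) = i a) : Sat K θ C := by
  intro A₀ B _ _ i₀ f hi₀ hf hA₀ hB
  obtain ⟨A, _, i, hi, hA, hX, hU⟩ := h (range i₀) (mk_range_le.trans hA₀.le)
  obtain ⟨k, hk, hk'⟩ := exists_lift i₀ i hi₀ hi fun a => hX _ ⟨a, rfl⟩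
  obtain ⟨D, _, f', g', hf', hg', hD, h1⟩ := hAB.amalg hK hℓ hext f k hf hk hA₀ hB hA
  obtain ⟨g, hg, hg''⟩ := hU D g' hg' hD
  refine ⟨g.comp f', AEC.Emb.comp hg hf', fun a => ?_⟩
  change g (f' (f a)) = i₀ a
  rw [h1, hg'', hk']

/-- The one-sided extension theorem. -/
theorem Pos.exists_emb (hK : K.IsLS ℓ) (hℓ : ℓ ≤ θ) {D C : Type u} [L.Structure D]
    [L.Structure C] (hD : K.mem D) (hs : Sat K θ C) (hDc : #D = Order.succ θ)
    (x : Pos K θ D C) : ∃ e : D ↪[L] C, K.Emb e ∧ ∀ p ∈ x.R, e p.1 = p.2 := by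
  have hθ : ℵ₀ ≤ θ := hK.1.trans hℓ
  have hI : #(SuccTy θ) = Order.succ θ := by
    rw [mk_toType, card_ord]
  obtain ⟨f⟩ := Cardinal.eq.1 (hI.trans hDc.symm)
  have hstep : ∀ (i : SuccTy θ) (y : Pos K θ D C), ∃ z, y ≤ z ∧ f i ∈ z.S := by
    intro i y
    obtain ⟨z, hz1, hz2⟩ := y.exists_left hK hℓ hD ((Order.le_succ θ).trans hDc.ge) hs {f i} (by
      rw [mk_singleton]
      exact one_le_aleph0.trans hθ)
    exact ⟨z, hz1, hz2 rfl⟩
  choose st hst1 hst2 using hstep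
  obtain ⟨b, hb1, hb2⟩ := exists_chain (Pos.chB hθ) x (SuccTy θ) (fun i => mk_Iio_succTy i) st
    hst1
  obtain ⟨i₀, -⟩ := exists_gt_of_small hθ (∅ : Set (SuccTy θ)) (by simp)
  have hne : Nonempty (SuccTy θ) := ⟨i₀⟩
  have hmono : Monotone fun i => st i (b i) := by
    intro i j hij
    rcases eq_or_lt_of_le hij with h | h
    · rw [h]
    · exact (hb2 i j h).trans (hst1 j _)
  have hpi := isPI_iUnion (fun i => (st i (b i)).R) (fun i j h => hmono h)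
    fun i => (st i (b i)).pi
  have hS' : Monotone fun i => (st i (b i)).S' := fun i j h => Pos.S'_mono (hmono h)
  have h1 : K.le (⨆ i, (st i (b i)).S') := AEC.le_iSup_directed _ hS' fun i => (st i (b i)).le'
  have h2 : ∀ y, y ∈ (⨆ i, (st i (b i)).S') ↔ ∃ x, (x, y) ∈ ⋃ i, (st i (b i)).R := by
    intro y
    rw [Language.Substructure.mem_iSup_of_directed hS'.directed_le]
    constructor
    · rintro ⟨i, hi⟩
      rw [← SetLike.mem_coe, Pos.snd] at hi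
      obtain ⟨p, hp, rfl⟩ := hi
      exact ⟨p.1, mem_iUnion.2 ⟨i, hp⟩⟩
    · rintro ⟨x, hx⟩
      obtain ⟨i, hi⟩ := mem_iUnion.1 hx
      refine ⟨i, ?_⟩
      rw [← SetLike.mem_coe, Pos.snd]
      exact ⟨_, hi, rfl⟩
  have h3 : ∀ a : D, ∃ y, (a, y) ∈ ⋃ i, (st i (b i)).R := by
    intro a
    obtain ⟨i, rfl⟩ := f.surjective a
    have h4 : f i ∈ ((st i (b i)).S : Set D) := hst2 i (b i)
    rw [Pos.fst] at h4
    obtain ⟨p, hp, hpa⟩ := h4
    refine ⟨p.2, mem_iUnion.2 ⟨i, ?_⟩⟩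
    rw [← hpa]
    exact hp
  obtain ⟨e, he⟩ := hpi.exists_equiv_sub (⊤ : L.Substructure D) (⨆ i, (st i (b i)).S') (by
    intro a _
    obtain ⟨y, hy⟩ := h3 a
    exact ⟨y, (h2 y).2 ⟨a, hy⟩, hy⟩) (by
    intro y hy
    obtain ⟨x, hx⟩ := (h2 y).1 hy
    exact ⟨x, trivial, hx⟩)
  let e₀ : D ≃[L] (⊤ : L.Substructure D) := Language.Substructure.topEquiv.symm
  refine ⟨((⨆ i, (st i (b i)).S' : L.Substructure C).subtype.comp e.toEmbedding).comp
    e₀.toEmbedding, AEC.Emb.comp (AEC.Emb.comp (AEC.emb_subtype.2 h1) (AEC.Emb.of_equiv e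
      (K.mem_iso e₀ hD))) (AEC.Emb.of_equiv e₀ hD), fun p hp => ?_⟩
  have h4 : p ∈ ⋃ i, (st i (b i)).R := mem_iUnion.2 ⟨i₀, hst1 i₀ _ (hb1 i₀ hp)⟩
  exact (hpi.eq_iff _ (he ⟨p.1, trivial⟩) _ h4).1 rfl

/-- Members of size `θ⁺` embed in saturated members, over a strong submodel of size `θ`. -/
theorem Sat.exists_emb (hK : K.IsLS ℓ) (hℓ : ℓ ≤ θ) {D C A : Type u} [L.Structure D]
    [L.Structure C] [L.Structure A] (hs : Sat K θ C) (hDc : #D = Order.succ θ) (i : A ↪[L] D)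
    (i' : A ↪[L] C) (hi : K.Emb i) (hi' : K.Emb i') (hA : #A = θ) :
    ∃ e : D ↪[L] C, K.Emb e ∧ ∀ a, e (i a) = i' a := by
  obtain ⟨x, hx⟩ := exists_pos_of_emb i i' hi hi' hA
  obtain ⟨e, he, he'⟩ := x.exists_emb hK hℓ hi.mem_right hs hDc
  refine ⟨e, he, fun a => he' (i a, i' a) ?_⟩
  rw [hx]
  exact ⟨a, rfl⟩

end Vale.Agent.P307.R2.H971
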