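import Vale.Agent.P307.R2.H971.SatEM

/-!
The saturated member of size `θ⁺`: the interface.
-/

set_option linter.unusedSectionVars false

universe u v w

open FirstOrder Cardinal Set

namespace Vale.Agent.P307.R2.H971

open Vale.Agent.P307 Vale.Agent.P307.H304 Vale.Agent.P307.R2.H287 Language.Structure
  Language.Substructure

variable {L : Language.{u, u}} {K : AEC L} {ℓ θ T ν : Cardinal.{u}}

/-- Existence of saturated members of size `θ⁺`. -/
theorem exists_saturated (hK : K.IsLS ℓ) (hℓ : ℓ ≤ θ) (t : Tpl K ν) (hν : ν ≤ θ)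
    (hcat : K.CategoricalIn θ) (hAB : AB K θ T) :
    ∃ (C : Type u) (_ : L.Structure C), K.mem C ∧ #C = Order.succ θ ∧ Sat K θ C := by
  have hθ : ℵ₀ ≤ θ := hK.1.trans hℓ
  obtain ⟨E⟩ := exists_em t (SuccTy θ)
  obtain ⟨E'⟩ := exists_em t (max θ T).ord.ToType
  have h1 : max θ T ≤ #E'.N := by
    have h2 := E'.le_card
    rw [mk_toType, card_ord] at h2
    exact h2
  have hext : LargeExt K θ T := largeExt_of_cat hK hℓ hcat E'.mem ((le_max_left _ _).trans h1)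
    ((le_max_right _ _).trans h1)
  refine ⟨E.N, inferInstance, E.mem, ?_, hAB.sat_em hK hℓ hext t hν E⟩
  exact E.card_eq (hν.trans (Order.le_succ θ)) (by rw [mk_toType, card_ord])

/-- Homogeneity. -/
theorem Sat.exists_aut (hK : K.IsLS ℓ) (hℓ : ℓ ≤ θ) {C : Type u} [L.Structure C]
    (hs : Sat K θ C) (hCc : #C = Order.succ θ) (A B : L.Substructure C) (hA : K.le A)
    (hB : K.le B) (hAc : #A = θ) (e : A ≃[L] B) :
    ∃ g : C ≃[L] C, ∀ a : A, g a = (e a : C) := by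
  obtain ⟨g, hg⟩ := hs.exists_iso hK hℓ hs hCc hCc A.subtype (B.subtype.comp e.toEmbedding)
    (AEC.emb_subtype.2 hA) (AEC.Emb.comp (AEC.emb_subtype.2 hB)
      (AEC.Emb.of_equiv e (K.mem_of_le _ hA).1)) hAc
  exact ⟨g, hg⟩

/-- Embeddings over a strong submodel. -/
theorem Sat.exists_over {C D : Type u} [L.Structure C] [L.Structure D] (hs : Sat K θ C)
    (A : L.Substructure C) (hA : K.le A) (hAc : #A = θ) (f : A ↪[L] D) (hf : K.Emb f)
    (hD : #D = θ) : ∃ g : D ↪[L] C, K.Emb g ∧ ∀ a, g (f a) = a :=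
  hs A D A.subtype f (AEC.emb_subtype.2 hA) hf hAc hD

/-- Members of size `θ` embed. -/
theorem Sat.exists_of_cat (hK : K.IsLS ℓ) (hℓ : ℓ ≤ θ) (hcat : K.CategoricalIn θ) {C D : Type u}
    [L.Structure C] [L.Structure D] (hC : K.mem C) (hCθ : θ ≤ #C) (hD : K.mem D) (hDc : #D = θ) :
    ∃ g : D ↪[L] C, K.Emb g := by
  obtain ⟨S, hS, -, hSc⟩ := exists_sub_card hK hℓ hC hCθ ∅ (by simp)
  obtain ⟨e⟩ := hcat.2 D S hD (K.mem_of_le _ hS).1 hDc hSc
  exact ⟨S.subtype.comp e.toEmbedding, AEC.Emb.comp (AEC.emb_subtype.2 hS)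
    (AEC.Emb.of_equiv e hD)⟩

/-- Small sets are contained in strong submodels of size `θ`. -/
theorem exists_sub_of_small (hK : K.IsLS ℓ) (hℓ : ℓ ≤ θ) {C : Type u} [L.Structure C]
    (hC : K.mem C) (hCθ : θ ≤ #C) (X : Set C) (hX : #X ≤ θ) :
    ∃ S : L.Substructure C, K.le S ∧ X ⊆ S ∧ #S = θ :=
  exists_sub_card hK hℓ hC hCθ X hX

/-- Uniqueness of the saturated member, over the empty set. -/
theorem Sat.unique (hK : K.IsLS ℓ) (hℓ : ℓ ≤ θ) (hcat : K.CategoricalIn θ) {C C' : Type u}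
    [L.Structure C] [L.Structure C'] (hC : K.mem C) (hC' : K.mem C') (hs : Sat K θ C)
    (hs' : Sat K θ C') (hCc : #C = Order.succ θ) (hCc' : #C' = Order.succ θ) :
    Nonempty (C ≃[L] C') := by
  obtain ⟨S, hS, -, hSc⟩ := exists_sub_card hK hℓ hC ((Order.le_succ θ).trans hCc.ge) ∅ (by simp)
  obtain ⟨g, hg⟩ := Sat.exists_of_cat hK hℓ hcat hC' ((Order.le_succ θ).trans hCc'.ge)
    (K.mem_of_le _ hS).1 hSc
  obtain ⟨e, -⟩ := hs.exists_iso hK hℓ hs' hCc hCc' S.subtype g (AEC.emb_subtype.2 hS) hg hSc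
  exact ⟨e⟩

/-- Categoricity in `θ⁺` from saturation of all members of size `θ⁺`. -/
theorem categoricalIn_succ (hK : K.IsLS ℓ) (hℓ : ℓ ≤ θ) (t : Tpl K ν) (hν : ν ≤ θ)
    (hcat : K.CategoricalIn θ) (h : ∀ (C : Type u) [L.Structure C], K.mem C →
      #C = Order.succ θ → Sat K θ C) : K.CategoricalIn (Order.succ θ) := by
  constructor
  · obtain ⟨E⟩ := exists_em t (SuccTy θ)
    exact ⟨E.N, inferInstance, E.mem,
      E.card_eq (hν.trans (Order.le_succ θ)) (by rw [mk_toType, card_ord])⟩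
  · intro M N _ _ hM hN hMc hNc
    exact Sat.unique hK hℓ hcat hM hN (h M hM hMc) (h N hN hNc) hMc hNc

end Vale.Agent.P307.R2.H971
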