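import Vale.Agent.P307.R2.H971.Sat
import Vale.Agent.P307.H304.SparseUp

/-!
The EM model over `θ⁺` is saturated.
-/

set_option linter.unusedSectionVars false

universe u v w

open FirstOrder Cardinal Set

namespace Vale.Agent.P307.R2.H971

open Vale.Agent.P307 Vale.Agent.P307.H304 Vale.Agent.P307.R2.H287 Language.Structure
  Language.Substructure

variable {L : Language.{u, u}} {K : AEC L} {ℓ θ T ν : Cardinal.{u}}

section maps

variable {t : Tpl K ν} {I I' I'' : Type u} [LinearOrder I] [LinearOrder I'] [LinearOrder I'']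

theorem EM.exists_term (E : EM t I) (x : E.N) : ∃ s : (exLang L t.Λ).Term I,
    s.realize E.c = x := by
  have h2 : x ∈ closure (exLang L t.Λ) (range E.c) := by rw [E.top]; trivial
  exact Gr.mem_closure_range.1 h2

/-- `f` is the map of EM models given by `σ`. -/
def IsMap (E : EM t I) (E' : EM t I') (σ : I → I') (f : E.N → E'.N) : Prop :=
  ∀ s : (exLang L t.Λ).Term I, f (s.realize E.c) = s.realize fun i => E'.c (σ i)

theorem IsMap.comp_eq {E : EM t I} {E' : EM t I'} {E'' : EM t I''} {f : E.N → E'.N}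
    {g : E'.N → E''.N} {h : E.N → E''.N} {σ : I → I'} {τ : I' → I''} {ρ : I → I''}
    (hf : IsMap E E' σ f) (hg : IsMap E' E'' τ g) (hh : IsMap E E'' ρ h)
    (hρ : ∀ i, τ (σ i) = ρ i) (x : E.N) : g (f x) = h x := by
  obtain ⟨s, rfl⟩ := EM.exists_term E x
  rw [hf, hh]
  have h1 := hg (s.relabel σ)
  rw [Language.Term.realize_relabel, Language.Term.realize_relabel] at h1
  refine h1.trans ?_
  congr 1
  funext i
  exact congrArg E''.c (hρ i)

/-- Values of terms over a set of indices are in the range of the map. -/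
theorem IsMap.exists_preimage {E : EM t I} {E' : EM t I'} {f : E.N → E'.N} {σ : I → I'}
    (hf : IsMap E E' σ f) {V : Set I'} (hV : ∀ v ∈ V, ∃ i, σ i = v) (s : (exLang L t.Λ).Term V) :
    ∃ x, f x = s.realize fun q : V => E'.c q.1 := by
  choose r hr using fun v : V => hV v.1 v.2
  refine ⟨(s.relabel r).realize E.c, ?_⟩
  rw [hf, Language.Term.realize_relabel]
  congr 1
  funext q
  exact congrArg E'.c (hr q)

end maps

/-- A position in `θ⁺` above a small set, with `θ` predecessors. -/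
theorem exists_bound (hθ : ℵ₀ ≤ θ) (V : Set (SuccTy θ)) (hV : #V ≤ θ) :
    ∃ i : SuccTy θ, (∀ v ∈ V, v < i) ∧ #(Iio i) = θ := by
  have h1 : θ ≤ #(SuccTy θ) := by
    rw [mk_toType, card_ord]
    exact Order.le_succ θ
  obtain ⟨W, hW⟩ := le_mk_iff_exists_set.1 h1
  obtain ⟨i, hi⟩ := exists_gt_of_small hθ (V ∪ W) ((mk_union_le _ _).trans
    (add_le_of_le hθ hV hW.le))
  refine ⟨i, fun v hv => hi v (Or.inl hv), le_antisymm (mk_Iio_succTy i) ?_⟩
  exact hW.symm.trans_le (mk_le_mk_of_subset fun w hw => hi w (Or.inr hw))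

/-- Well-orders of size at most `θ` embed in `θ⁺` above any point. -/
theorem exists_strictMono_above (hθ : ℵ₀ ≤ θ) {W : Type u} [LinearOrder W] [WellFoundedLT W]
    (hW : #W ≤ θ) (i : SuccTy θ) : ∃ τ : W → SuccTy θ, StrictMono τ ∧ ∀ w, i ≤ τ w := by
  have hc : #(SuccTy θ) = Order.succ θ := by rw [mk_toType, card_ord]
  have hinf : Infinite (SuccTy θ) := infinite_iff.2 (by
    rw [hc]
    exact hθ.trans (Order.le_succ θ))
  have h1 : #(Ici i) = Order.succ θ := by
    rw [← Set.compl_Iio, mk_compl_of_infinite (Iio i), hc]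
    rw [hc]
    exact Order.lt_succ_of_le (mk_Iio_succTy i)
  obtain ⟨j, hj⟩ := exists_strictMono (D := W) (H := Ici i) (by
    rw [h1]
    exact Order.lt_succ_of_le hW)
  exact ⟨fun w => (j w).1, fun a b hab => hj hab, fun w => (j w).2⟩

/-- The EM model over `θ⁺` is saturated. -/
theorem AB.sat_em (hAB : AB K θ T) (hK : K.IsLS ℓ) (hℓ : ℓ ≤ θ) (hext : LargeExt K θ T)
    (t : Tpl K ν) (hν : ν ≤ θ) (E : EM t (SuccTy θ)) : Sat K θ E.N := by
  have hθ : ℵ₀ ≤ θ := hK.1.trans hℓ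
  refine hAB.sat_of_cofinal hK hℓ hext fun X hX => ?_
  obtain ⟨V, hV, hVX⟩ := exists_cover' hθ E.top X hX
  obtain ⟨i, hi, hic⟩ := exists_bound hθ V hV
  obtain ⟨Ei⟩ := exists_em t (Iio i)
  obtain ⟨a, ha, ha'⟩ := Ei.exists_map E (Subtype.val : Iio i → SuccTy θ) fun _ _ h => h
  refine ⟨Ei.N, inferInstance, a, ha, Ei.card_eq hν hic, fun x hx => ?_, fun B _ f hf hB => ?_⟩
  · obtain ⟨s, rfl⟩ := hVX x hx
    exact IsMap.exists_preimage (f := a) ha' (fun v hv => ⟨⟨v, hi v hv⟩, rfl⟩) s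
  let W : Type u := T.ord.ToType
  let J : Type u := Iio i ⊕ₗ W
  obtain ⟨E'⟩ := exists_em t J
  have hE' : T ≤ #E'.N := by
    refine le_trans ?_ E'.le_card
    have h1 : #W = T := by
      change #(T.ord.ToType) = T
      rw [mk_toType, card_ord]
    rw [← h1]
    exact mk_le_of_injective (f := fun w : W => (toLex (Sum.inr w) : J)) fun w w' h =>
      Sum.inr_injective (toLex.injective h)
  obtain ⟨j₁, hj₁, hj₁'⟩ := Ei.exists_map E' (fun x : Iio i => (toLex (Sum.inl x) : J))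
    fun x y h => Sum.Lex.inl_lt_inl_iff.2 h
  obtain ⟨h, hh, hh'⟩ := hAB.sat hK hℓ hext hE' Ei.N B j₁ f hj₁ hf (Ei.card_eq hν hic) hB
  obtain ⟨V', hV', hV'X⟩ := exists_cover' hθ E'.top (range h) (mk_range_le.trans hB.le)
  let W' : Set W := (fun w => (toLex (Sum.inr w) : J)) ⁻¹' V'
  have hW' : #W' ≤ θ := (mk_preimage_of_injective _ _ (fun w w' h =>
    Sum.inr_injective (toLex.injective h))).trans hV'
  let J' : Type u := Iio i ⊕ₗ W'
  obtain ⟨E''⟩ := exists_em t J'
  let σ₂ : J' → J := fun x => toLex (Sum.map id Subtype.val (ofLex x))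
  have hσ₂ : StrictMono σ₂ := by
    intro x y hxy
    rcases hx : (ofLex x : Iio i ⊕ W') with x' | x' <;>
      rcases hy : (ofLex y : Iio i ⊕ W') with y' | y'
    · have h1 : x = toLex (Sum.inl x') := hx
      have h2 : y = toLex (Sum.inl y') := hy
      subst h1 h2
      have h3 : x' < y' := Sum.Lex.inl_lt_inl_iff.1 hxy
      exact Sum.Lex.inl_lt_inl_iff.2 h3
    · have h1 : x = toLex (Sum.inl x') := hx
      have h2 : y = toLex (Sum.inr y') := hy
      subst h1 h2
      exact Sum.Lex.inl_lt_inr _ _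
    · have h1 : x = toLex (Sum.inr x') := hx
      have h2 : y = toLex (Sum.inl y') := hy
      subst h1 h2
      exact absurd hxy (Sum.Lex.not_inr_lt_inl)
    · have h1 : x = toLex (Sum.inr x') := hx
      have h2 : y = toLex (Sum.inr y') := hy
      subst h1 h2
      have h3 : x' < y' := Sum.Lex.inr_lt_inr_iff.1 hxy
      exact Sum.Lex.inr_lt_inr_iff.2 h3
  obtain ⟨j₂, hj₂, hj₂'⟩ := E''.exists_map E' σ₂ hσ₂
  obtain ⟨τ, hτ, hτi⟩ := exists_strictMono_above hθ hW' i
  let σ₃ : J' → SuccTy θ := fun x => Sum.elim Subtype.val τ (ofLex x)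
  have hσ₃ : StrictMono σ₃ := by
    intro x y hxy
    rcases hx : (ofLex x : Iio i ⊕ W') with x' | x' <;>
      rcases hy : (ofLex y : Iio i ⊕ W') with y' | y'
    · have h1 : x = toLex (Sum.inl x') := hx
      have h2 : y = toLex (Sum.inl y') := hy
      subst h1 h2
      have h3 : x' < y' := Sum.Lex.inl_lt_inl_iff.1 hxy
      exact h3
    · have h1 : x = toLex (Sum.inl x') := hx
      have h2 : y = toLex (Sum.inr y') := hy
      subst h1 h2
      exact lt_of_lt_of_le x'.2 (hτi y')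
    · have h1 : x = toLex (Sum.inr x') := hx
      have h2 : y = toLex (Sum.inl y') := hy
      subst h1 h2
      exact absurd hxy (Sum.Lex.not_inr_lt_inl)
    · have h1 : x = toLex (Sum.inr x') := hx
      have h2 : y = toLex (Sum.inr y') := hy
      subst h1 h2
      have h3 : x' < y' := Sum.Lex.inr_lt_inr_iff.1 hxy
      exact hτ h3
  obtain ⟨j₃, hj₃, hj₃'⟩ := E''.exists_map E σ₃ hσ₃
  obtain ⟨j₄, hj₄, hj₄'⟩ := Ei.exists_map E'' (fun x : Iio i => (toLex (Sum.inl x) : J'))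
    fun x y h => Sum.Lex.inl_lt_inl_iff.2 h
  obtain ⟨k, hk, hk'⟩ := exists_lift h j₂ hh hj₂ (by
    intro b
    obtain ⟨s, hs⟩ := hV'X (h b) ⟨b, rfl⟩
    rw [← hs]
    refine IsMap.exists_preimage (f := j₂) hj₂' (fun v hv => ?_) s
    rcases hv' : (ofLex v : Iio i ⊕ W) with x' | x'
    · have h1 : v = toLex (Sum.inl x') := hv'
      exact ⟨toLex (Sum.inl x'), h1.symm⟩
    · have h1 : v = toLex (Sum.inr x') := hv'
      exact ⟨toLex (Sum.inr ⟨x', by
        change (toLex (Sum.inr x') : J) ∈ V'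
        rw [← h1]
        exact hv⟩), h1.symm⟩)
  refine ⟨j₃.comp k, AEC.Emb.comp hj₃ hk, fun x => ?_⟩
  have h1 : j₂ (j₄ x) = j₁ x := IsMap.comp_eq (f := j₄) (g := j₂) (h := j₁) hj₄' hj₂' hj₁'
    (fun _ => rfl) x
  have h2 : j₃ (j₄ x) = a x := IsMap.comp_eq (f := j₄) (g := j₃) (h := a) hj₄' hj₃' ha'
    (fun _ => rfl) x
  have h3 : k (f x) = j₄ x := j₂.injective (by rw [hk', hh', h1])
  change j₃ (k (f x)) = a x
  rw [h3, h2]

end Vale.Agent.P307.R2.H971
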