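import Vale.Agent.P307.R2.H287.Unif2

/-!
Saturated members of size `θ⁺`: strong submodels of size `θ`, extension of isomorphisms.
-/

set_option linter.unusedSectionVars false

universe u v w

open FirstOrder Cardinal Set

namespace Vale.Agent.P307.R2.H971

open Vale.Agent.P307 Vale.Agent.P307.H304 Vale.Agent.P307.R2.H287 Language.Structure
  Language.Substructure

variable {L : Language.{u, u}} {K : AEC L} {ℓ θ : Cardinal.{u}}

/-- Unions of chains of partial isomorphisms. -/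
theorem isPI_iUnion {M N : Type u} [L.Structure M] [L.Structure N] {ι : Type u} [LinearOrder ι]
    [Nonempty ι] (R : ι → Set (M × N)) (hm : Monotone R) (h : ∀ i, IsPI L (R i)) :
    IsPI L (⋃ i, R i) := by
  have hfin : ∀ {k : ℕ} (x : Fin k → M × N), (∀ i, x i ∈ ⋃ n, R n) →
      ∀ j, ∃ n, j ≤ n ∧ ∀ i, x i ∈ R n := by
    intro k x hx j
    choose g hg using fun i => mem_iUnion.1 (hx i)
    obtain ⟨m, hm'⟩ := Finset.exists_le (Finset.univ.image g)
    exact ⟨max j m, le_max_left _ _, fun i => hm ((hm' _ (Finset.mem_image_of_mem g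
      (Finset.mem_univ i))).trans (le_max_right _ _)) (hg i)⟩
  constructor
  · intro p hp q' hq
    obtain ⟨n, h1⟩ := mem_iUnion.1 hp
    obtain ⟨m, h2⟩ := mem_iUnion.1 hq
    exact (h (max n m)).eq_iff p (hm (le_max_left n m) h1) q' (hm (le_max_right n m) h2)
  · intro k f x hx q' hq
    obtain ⟨m, h2⟩ := mem_iUnion.1 hq
    obtain ⟨n, hmn, h1⟩ := hfin x hx m
    exact (h n).fun_iff f x h1 q' (hm hmn h2)
  · intro k r x hx
    obtain ⟨n, -, h1⟩ := hfin x hx (Classical.arbitrary ι)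
    exact (h n).rel_iff r x h1

/-- `C` realizes over its strong submodels of size `θ` all the extensions of size `θ`. -/
def Sat (K : AEC L) (θ : Cardinal.{u}) (C : Type u) [L.Structure C] : Prop :=
  ∀ (A B : Type u) [L.Structure A] [L.Structure B] (i : A ↪[L] C) (f : A ↪[L] B), K.Emb i →
    K.Emb f → #A = θ → #B = θ → ∃ g : B ↪[L] C, K.Emb g ∧ ∀ a, g (f a) = i a

/-- Isomorphisms between strong submodels of size `θ`. -/
structure Pos (K : AEC L) (θ : Cardinal.{u}) (C C' : Type u) [L.Structure C] [L.Structure C'] where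
  R : Set (C × C')
  pi : IsPI L R
  S : L.Substructure C
  S' : L.Substructure C'
  le : K.le S
  le' : K.le S'
  fst : (S : Set C) = Prod.fst '' R
  snd : (S' : Set C') = Prod.snd '' R
  card : #S = θ

section pos

variable {C C' : Type u} [L.Structure C] [L.Structure C']

instance : Preorder (Pos K θ C C') where
  le x y := x.R ⊆ y.R
  le_refl x := Subset.rfl
  le_trans x y z h h' := h.trans h'

theorem Pos.le_def {x y : Pos K θ C C'} : x ≤ y ↔ x.R ⊆ y.R := Iff.rfl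

theorem Pos.S_mono {x y : Pos K θ C C'} (h : x ≤ y) : x.S ≤ y.S := by
  intro a ha
  rw [← SetLike.mem_coe, x.fst] at ha
  rw [← SetLike.mem_coe, y.fst]
  exact image_mono h ha

theorem Pos.S'_mono {x y : Pos K θ C C'} (h : x ≤ y) : x.S' ≤ y.S' := by
  intro a ha
  rw [← SetLike.mem_coe, x.snd] at ha
  rw [← SetLike.mem_coe, y.snd]
  exact image_mono h ha

/-- The isomorphism. -/
theorem Pos.exists_equiv (x : Pos K θ C C') :
    ∃ e : x.S ≃[L] x.S', ∀ a : x.S, ((a : C), (e a : C')) ∈ x.R :=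
  x.pi.exists_equiv_sub x.S x.S' (by
    intro a ha
    rw [← SetLike.mem_coe, x.fst] at ha
    obtain ⟨p, hp, rfl⟩ := ha
    refine ⟨p.2, ?_, hp⟩
    rw [← SetLike.mem_coe, x.snd]
    exact ⟨p, hp, rfl⟩) (by
    intro a ha
    rw [← SetLike.mem_coe, x.snd] at ha
    obtain ⟨p, hp, rfl⟩ := ha
    refine ⟨p.1, ?_, hp⟩
    rw [← SetLike.mem_coe, x.fst]
    exact ⟨p, hp, rfl⟩)

theorem Pos.card' (x : Pos K θ C C') : #x.S' = θ := by
  obtain ⟨e, -⟩ := x.exists_equiv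
  exact (mk_congr e.toEquiv).symm.trans x.card

/-- Symmetry. -/
def Pos.swap (x : Pos K θ C C') : Pos K θ C' C where
  R := Prod.swap ⁻¹' x.R
  pi := x.pi.swap
  S := x.S'
  S' := x.S
  le := x.le'
  le' := x.le
  fst := by
    rw [x.snd]
    ext a
    constructor
    · rintro ⟨p, hp, rfl⟩
      exact ⟨p.swap, hp, rfl⟩
    · rintro ⟨p, hp, rfl⟩
      exact ⟨p.swap, hp, rfl⟩
  snd := by
    rw [x.fst]
    ext a
    constructor
    · rintro ⟨p, hp, rfl⟩
      exact ⟨p.swap, hp, rfl⟩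
    · rintro ⟨p, hp, rfl⟩
      exact ⟨p.swap, hp, rfl⟩
  card := x.card'

/-- The position given by two strong embeddings. -/
theorem exists_pos_of_emb {A : Type u} [L.Structure A] (i : A ↪[L] C) (i' : A ↪[L] C')
    (hi : K.Emb i) (hi' : K.Emb i') (hA : #A = θ) :
    ∃ x : Pos K θ C C', x.R = Set.range fun a => (i a, i' a) := by
  have h1 : (i.toHom.range : Set C) = Set.range i := rfl
  have h2 : (i'.toHom.range : Set C') = Set.range i' := rfl
  refine ⟨{ R := Set.range fun a => (i a, i' a), pi := ?_, S := i.toHom.range,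
            S' := i'.toHom.range, le := hi, le' := hi', fst := ?_, snd := ?_, card := ?_ }, rfl⟩
  · have h3 := isPI_of_equiv_sub (i'.equivRange.comp i.equivRange.symm)
    refine h3.mono ?_
    rintro _ ⟨a, rfl⟩
    refine ⟨i.equivRange a, rfl, ?_⟩
    change ((i'.equivRange (i.equivRange.symm (i.equivRange a)) : i'.toHom.range) : C') = i' a
    rw [i.equivRange.symm_apply_apply]
    rfl
  · rw [h1]
    ext x
    constructor
    · rintro ⟨a, rfl⟩
      exact ⟨_, ⟨a, rfl⟩, rfl⟩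
    · rintro ⟨_, ⟨a, rfl⟩, rfl⟩
      exact ⟨a, rfl⟩
  · rw [h2]
    ext x
    constructor
    · rintro ⟨a, rfl⟩
      exact ⟨_, ⟨a, rfl⟩, rfl⟩
    · rintro ⟨_, ⟨a, rfl⟩, rfl⟩
      exact ⟨a, rfl⟩
  · rw [← hA]
    exact (mk_congr i.equivRange.toEquiv).symm

/-- Extension of positions on the left. -/
theorem Pos.exists_left (hK : K.IsLS ℓ) (hℓ : ℓ ≤ θ) (hC : K.mem C) (hCc : θ ≤ #C)
    (hC' : Sat K θ C') (x : Pos K θ C C') (B : Set C) (hB : #B ≤ θ) :
    ∃ y : Pos K θ C C', x ≤ y ∧ B ⊆ y.S := by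
  have hθ : ℵ₀ ≤ θ := hK.1.trans hℓ
  obtain ⟨e, he⟩ := x.exists_equiv
  obtain ⟨T, hT, hBT, hTc⟩ := exists_sub_card hK hℓ hC hCc ((x.S : Set C) ∪ B)
    ((mk_union_le _ _).trans (add_le_of_le hθ x.card.le hB))
  have hST : x.S ≤ T := fun a ha => hBT (Or.inl ha)
  have h1 : K.Emb (Language.Substructure.inclusion hST) := (AEC.sle_of_le_le hST x.le hT).2
  have h2 : K.Emb (x.S'.subtype.comp e.toEmbedding) :=
    AEC.Emb.comp (AEC.emb_subtype.2 x.le') (AEC.Emb.of_equiv e (K.mem_of_le _ x.le).1)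
  obtain ⟨g, hg, hg'⟩ := hC' x.S T (x.S'.subtype.comp e.toEmbedding)
    (Language.Substructure.inclusion hST) h2 h1 x.card hTc
  obtain ⟨y, hy⟩ := exists_pos_of_emb T.subtype g (AEC.emb_subtype.2 hT) hg hTc
  refine ⟨y, ?_, ?_⟩
  · rw [Pos.le_def, hy]
    intro p hp
    have h3 : p.1 ∈ x.S := by
      rw [← SetLike.mem_coe, x.fst]
      exact ⟨p, hp, rfl⟩
    refine ⟨⟨p.1, hST h3⟩, Prod.ext rfl ?_⟩
    have h4 : g ⟨p.1, hST h3⟩ = (e ⟨p.1, h3⟩ : C') := hg' ⟨p.1, h3⟩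
    have h5 := (x.pi.eq_iff _ hp _ (he ⟨p.1, h3⟩)).1 rfl
    exact h4.trans h5.symm
  · intro b hb
    rw [SetLike.mem_coe, ← SetLike.mem_coe, y.fst, hy]
    exact ⟨_, ⟨⟨b, hBT (Or.inr hb)⟩, rfl⟩, rfl⟩

theorem Pos.exists_right (hK : K.IsLS ℓ) (hℓ : ℓ ≤ θ) (hC : K.mem C') (hCc : θ ≤ #C')
    (hC' : Sat K θ C) (x : Pos K θ C C') (B : Set C') (hB : #B ≤ θ) :
    ∃ y : Pos K θ C C', x ≤ y ∧ B ⊆ y.S' := by
  obtain ⟨y, h1, h2⟩ := x.swap.exists_left hK hℓ hC hCc hC' B hB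
  refine ⟨y.swap, ?_, h2⟩
  intro p hp
  exact h1 (a := p.swap) hp

/-- Unions of chains of positions. -/
theorem Pos.exists_iUnion (hθ : ℵ₀ ≤ θ) {ι : Type u} [LinearOrder ι] [Nonempty ι] (hι : #ι ≤ θ)
    (c : ι → Pos K θ C C') (hc : Monotone c) :
    ∃ y : Pos K θ C C', (∀ i, c i ≤ y) ∧ y.R = ⋃ i, (c i).R := by
  have hS : Monotone fun i => (c i).S := fun i j h => Pos.S_mono (hc h)
  have hS' : Monotone fun i => (c i).S' := fun i j h => Pos.S'_mono (hc h)
  have h1 : K.le (⨆ i, (c i).S) := AEC.le_iSup_directed _ hS fun i => (c i).le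
  have h2 : K.le (⨆ i, (c i).S') := AEC.le_iSup_directed _ hS' fun i => (c i).le'
  have h3 : ((⨆ i, (c i).S : L.Substructure C) : Set C) = ⋃ i, ((c i).S : Set C) := by
    ext x
    rw [SetLike.mem_coe, Language.Substructure.mem_iSup_of_directed hS.directed_le, mem_iUnion]
    rfl
  have h4 : ((⨆ i, (c i).S' : L.Substructure C') : Set C') = ⋃ i, ((c i).S' : Set C') := by
    ext x
    rw [SetLike.mem_coe, Language.Substructure.mem_iSup_of_directed hS'.directed_le, mem_iUnion]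
    rfl
  refine ⟨{ R := ⋃ i, (c i).R, pi := isPI_iUnion _ (fun i j h => hc h) fun i => (c i).pi,
            S := ⨆ i, (c i).S, S' := ⨆ i, (c i).S', le := h1, le' := h2, fst := ?_, snd := ?_,
            card := ?_ }, fun i => subset_iUnion (fun i => (c i).R) i, rfl⟩
  · rw [h3, image_iUnion]
    exact iUnion_congr fun i => (c i).fst
  · rw [h4, image_iUnion]
    exact iUnion_congr fun i => (c i).snd
  · apply le_antisymm
    · change #((⨆ i, (c i).S : L.Substructure C) : Set C) ≤ θ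
      rw [h3]
      exact mk_iUnion_le_of_le hθ hι _ fun i => (c i).card.le
    · refine ((c (Classical.arbitrary ι)).card.symm.trans_le ?_)
      exact mk_le_mk_of_subset (le_iSup (fun i => (c i).S) _)

theorem Pos.chB (hθ : ℵ₀ ≤ θ) : ChB (Pos K θ C C') θ := by
  intro ι _ _ hι c hc
  obtain ⟨y, hy, -⟩ := Pos.exists_iUnion hθ hι c hc
  exact ⟨y, hy⟩

end pos

/-- Extension of isomorphisms to saturated members of size `θ⁺`. -/
theorem Pos.exists_iso (hK : K.IsLS ℓ) (hℓ : ℓ ≤ θ) {C C' : Type u} [L.Structure C]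
    [L.Structure C'] (hC : K.mem C) (hC' : K.mem C') (hs : Sat K θ C) (hs' : Sat K θ C')
    (hCc : #C = Order.succ θ) (hCc' : #C' = Order.succ θ) (x : Pos K θ C C') :
    ∃ e : C ≃[L] C', ∀ p ∈ x.R, e p.1 = p.2 := by
  have hθ : ℵ₀ ≤ θ := hK.1.trans hℓ
  have hI : #(SuccTy θ) = Order.succ θ := by
    rw [mk_toType, card_ord]
  obtain ⟨f⟩ := Cardinal.eq.1 (hI.trans hCc.symm)
  obtain ⟨f'⟩ := Cardinal.eq.1 (hI.trans hCc'.symm)
  have hstep : ∀ (i : SuccTy θ) (y : Pos K θ C C'), ∃ z, y ≤ z ∧ f i ∈ z.S ∧ f' i ∈ z.S' := by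
    intro i y
    have h1 : ∀ {X : Type u} (a : X), #({a} : Set X) ≤ θ := fun a => by
      rw [mk_singleton]
      exact one_le_aleph0.trans hθ
    obtain ⟨z, hz1, hz2⟩ := y.exists_left hK hℓ hC ((Order.le_succ θ).trans hCc.ge) hs' {f i}
      (h1 _)
    obtain ⟨w, hw1, hw2⟩ := z.exists_right hK hℓ hC' ((Order.le_succ θ).trans hCc'.ge) hs {f' i}
      (h1 _)
    exact ⟨w, hz1.trans hw1, Pos.S_mono hw1 (hz2 rfl), hw2 rfl⟩
  choose st hst1 hst2 hst3 using hstep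
  obtain ⟨b, hb1, hb2⟩ := exists_chain (Pos.chB hθ) x (SuccTy θ) (fun i => mk_Iio_succTy i) st
    hst1
  obtain ⟨i₀, -⟩ := exists_gt_of_small hθ (∅ : Set (SuccTy θ)) (by simp)
  have hne : Nonempty (SuccTy θ) := ⟨i₀⟩
  have hmono : Monotone fun i => (st i (b i)).R := by
    intro i j hij
    rcases eq_or_lt_of_le hij with h | h
    · rw [h]
    · exact (hb2 i j h).trans (hst1 j _)
  have hpi := isPI_iUnion _ hmono fun i => (st i (b i)).pi
  obtain ⟨e, he⟩ := hpi.exists_equiv (by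
    intro a
    obtain ⟨i, rfl⟩ := f.surjective a
    have h1 : f i ∈ ((st i (b i)).S : Set C) := hst2 i (b i)
    rw [Pos.fst] at h1
    obtain ⟨p, hp, hpa⟩ := h1
    refine ⟨p.2, mem_iUnion.2 ⟨i, ?_⟩⟩
    rw [← hpa]
    exact hp) (by
    intro a
    obtain ⟨i, rfl⟩ := f'.surjective a
    have h1 : f' i ∈ ((st i (b i)).S' : Set C') := hst3 i (b i)
    rw [Pos.snd] at h1
    obtain ⟨p, hp, hpa⟩ := h1
    refine ⟨p.1, mem_iUnion.2 ⟨i, ?_⟩⟩
    rw [← hpa]
    exact hp)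
  refine ⟨e, fun p hp => ?_⟩
  have h1 : p ∈ ⋃ i, (st i (b i)).R := mem_iUnion.2 ⟨i₀, hst1 i₀ _ (hb1 i₀ hp)⟩
  exact (hpi.eq_iff _ (he p.1) _ h1).1 rfl

/-- Homogeneity and uniqueness of saturated members. -/
theorem Sat.exists_iso (hK : K.IsLS ℓ) (hℓ : ℓ ≤ θ) {C C' A : Type u} [L.Structure C]
    [L.Structure C'] [L.Structure A] (hs : Sat K θ C) (hs' : Sat K θ C')
    (hCc : #C = Order.succ θ) (hCc' : #C' = Order.succ θ) (i : A ↪[L] C) (i' : A ↪[L] C')
    (hi : K.Emb i) (hi' : K.Emb i') (hA : #A = θ) :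
    ∃ e : C ≃[L] C', ∀ a, e (i a) = i' a := by
  obtain ⟨x, hx⟩ := exists_pos_of_emb i i' hi hi' hA
  obtain ⟨e, he⟩ := x.exists_iso hK hℓ hi.mem_right hi'.mem_right hs hs' hCc hCc'
  refine ⟨e, fun a => he (i a, i' a) ?_⟩
  rw [hx]
  exact ⟨a, rfl⟩

end Vale.Agent.P307.R2.H971
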